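import Vale.Agent.P209.H863.Disc
import Vale.Agent.P209.H578.Defs

/-! The disc lemma in the form consumed by the geometric engine. -/

open Complex Set
open scoped ContDiff

namespace Vale.Agent.P209.H863

open Vale.Agent.P209

theorem dsc_isOpen (A : ℝ) : IsOpen (dsc A) :=
  isOpen_lt (continuous_const.mul (continuous_norm.pow 2)) continuous_const

theorem discLemma : H578.DiscLemma := by
  intro A ε hA hε
  obtain ⟨Ψ, h, φ, F, h1, h2, h3, h4⟩ := exists_disc_fam A ε hA hε
  have hd : ∀ s, ∀ z ∈ dsc A, DifferentiableAt ℝ Ψ (s, z) := fun s z hz =>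
    (F.smooth s z hz).differentiableAt (by simp)
  have hdh : ∀ s, ∀ z ∈ dsc A, DifferentiableAt ℝ h (s, z) := fun s z hz =>
    (F.hsmooth s z hz).differentiableAt (by simp)
  refine ⟨Ψ, h, φ, ?_, ?_, ?_, F.inj, ?_, ?_, h2, h3, h4⟩
  · rintro ⟨s, z⟩ ⟨-, hz⟩
    exact (F.smooth s z hz).contDiffWithinAt
  · rintro ⟨s, z⟩ ⟨-, hz⟩
    exact (F.hsmooth s z hz).contDiffWithinAt
  · intro z hz
    exact (h1 z hz).contDiffWithinAt
  · intro s z hz v w
    rw [partial_snd (hd s z hz), partial_snd (hd s z hz)]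
    exact F.area s z hz v w
  · intro s z hz v
    rw [partial_snd (hd s z hz), partial_snd (hdh s z hz), partial_fst (hd s z hz)]
    exact F.ham s z hz v

end Vale.Agent.P209.H863
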