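import Vale.Agent.P209.Bdl.B1

/-! The disc lemma for symplectic tetris: an explicit isotopy of area preserving maps which moves a
disc off the origin (local twists) and then outwards (radial step), with its generating
function. -/

open Complex Set
open scoped ContDiff

namespace Vale.Agent.P209.H863

open Vale.Agent.P209

/-- the open disc of capacity `A` -/
def dsc (A : ℝ) : Set ℂ := {z | Real.pi * ‖z‖ ^ 2 < A}

/-- A smooth family of area preserving injective maps on `V` with generating function `h`;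
formulated with the total derivatives. -/
structure Fam (V : Set ℂ) (Ψ : ℝ × ℂ → ℂ) (h : ℝ × ℂ → ℝ) : Prop where
  smooth : ∀ s, ∀ z ∈ V, ContDiffAt ℝ ∞ Ψ (s, z)
  hsmooth : ∀ s, ∀ z ∈ V, ContDiffAt ℝ ∞ h (s, z)
  inj : ∀ s, InjOn (fun z => Ψ (s, z)) V
  area : ∀ s, ∀ z ∈ V, ∀ v w, om1 (fderiv ℝ Ψ (s, z) (0, v)) (fderiv ℝ Ψ (s, z) (0, w)) = om1 v w
  ham : ∀ s, ∀ z ∈ V, ∀ v, fderiv ℝ h (s, z) (0, v) =
    om1 (fderiv ℝ Ψ (s, z) (1, 0)) (fderiv ℝ Ψ (s, z) (0, v))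

theorem om1_add_left (a b c : ℂ) : om1 (a + b) c = om1 a c + om1 b c := by
  unfold om1; simp; ring

theorem om1_smul_left (t : ℝ) (a c : ℂ) : om1 ((t : ℂ) * a) c = t * om1 a c := by
  unfold om1; simp; ring

theorem om1_add_right (a b c : ℂ) : om1 a (b + c) = om1 a b + om1 a c := by
  unfold om1; simp; ring

theorem om1_smul_right (t : ℝ) (a c : ℂ) : om1 a ((t : ℂ) * c) = t * om1 a c := by
  unfold om1; simp; ring

/-- Composition of two families with the same parameter. -/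
theorem Fam.comp {V W : Set ℂ} {Ψ₁ Ψ₂ : ℝ × ℂ → ℂ} {h₁ h₂ : ℝ × ℂ → ℝ}
    (H₂ : Fam W Ψ₂ h₂) (H₁ : Fam V Ψ₁ h₁) (hm : ∀ s, ∀ z ∈ V, Ψ₁ (s, z) ∈ W) :
    Fam V (fun q => Ψ₂ (q.1, Ψ₁ q)) (fun q => h₂ (q.1, Ψ₁ q) + h₁ q) := by
  have hA : ∀ s, ∀ z ∈ V, ContDiffAt ℝ ∞ (fun q : ℝ × ℂ => (q.1, Ψ₁ q)) (s, z) :=
    fun s z hz => contDiffAt_fst.prodMk (H₁.smooth s z hz)
  have hL : ∀ s, ∀ z ∈ V, HasFDerivAt (fun q : ℝ × ℂ => (q.1, Ψ₁ q))
      ((ContinuousLinearMap.fst ℝ ℝ ℂ).prod (fderiv ℝ Ψ₁ (s, z))) (s, z) := fun s z hz =>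
    hasFDerivAt_fst.prodMk ((H₁.smooth s z hz).differentiableAt (by simp)).hasFDerivAt
  have hd : ∀ s, ∀ z ∈ V, HasFDerivAt (fun q : ℝ × ℂ => Ψ₂ (q.1, Ψ₁ q))
      ((fderiv ℝ Ψ₂ (s, Ψ₁ (s, z))).comp
        ((ContinuousLinearMap.fst ℝ ℝ ℂ).prod (fderiv ℝ Ψ₁ (s, z)))) (s, z) := fun s z hz =>
    HasFDerivAt.comp (g := Ψ₂) (s, z)
      (((H₂.smooth s _ (hm s z hz)).differentiableAt (by simp)).hasFDerivAt) (hL s z hz)
  have hdh : ∀ s, ∀ z ∈ V, HasFDerivAt (fun q : ℝ × ℂ => h₂ (q.1, Ψ₁ q) + h₁ q)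
      ((fderiv ℝ h₂ (s, Ψ₁ (s, z))).comp
        ((ContinuousLinearMap.fst ℝ ℝ ℂ).prod (fderiv ℝ Ψ₁ (s, z))) + fderiv ℝ h₁ (s, z))
        (s, z) := fun s z hz =>
    (HasFDerivAt.comp (g := h₂) (s, z)
      (((H₂.hsmooth s _ (hm s z hz)).differentiableAt (by simp)).hasFDerivAt) (hL s z hz)).add
      ((H₁.hsmooth s z hz).differentiableAt (by simp)).hasFDerivAt
  have split : ∀ (s : ℝ) (z : ℂ) (w : ℂ), ((1 : ℝ), w) = (1, 0) + (0, w) := by
    intro s z w; simp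
  refine ⟨?_, ?_, ?_, ?_, ?_⟩
  · intro s z hz
    exact ContDiffAt.comp (g := Ψ₂) (f := fun q : ℝ × ℂ => (q.1, Ψ₁ q)) (s, z)
      (H₂.smooth s _ (hm s z hz)) (hA s z hz)
  · intro s z hz
    exact (ContDiffAt.comp (g := h₂) (f := fun q : ℝ × ℂ => (q.1, Ψ₁ q)) (s, z)
      (H₂.hsmooth s _ (hm s z hz)) (hA s z hz)).add (H₁.hsmooth s z hz)
  · intro s z hz w hw hzw
    exact H₁.inj s hz hw (H₂.inj s (hm s z hz) (hm s w hw) hzw)
  · intro s z hz v w
    rw [(hd s z hz).fderiv]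
    simp only [ContinuousLinearMap.comp_apply, ContinuousLinearMap.prod_apply,
      ContinuousLinearMap.coe_fst']
    rw [H₂.area s _ (hm s z hz), H₁.area s z hz]
  · intro s z hz v
    rw [(hd s z hz).fderiv, (hdh s z hz).fderiv]
    simp only [add_apply, ContinuousLinearMap.comp_apply,
      ContinuousLinearMap.prod_apply, ContinuousLinearMap.coe_fst']
    rw [H₂.ham s _ (hm s z hz), H₁.ham s z hz]
    rw [show ((1 : ℝ), (fderiv ℝ Ψ₁ (s, z)) (1, 0)) =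
      (1, 0) + (0, (fderiv ℝ Ψ₁ (s, z)) (1, 0)) by simp, map_add, om1_add_left,
      H₂.area s _ (hm s z hz)]

/-! ### The twist family -/

/-- antiderivative of the angle -/
noncomputable def angI (ρ q : ℝ) : ℝ := ∫ x in (0 : ℝ)..q, ang (x / ρ ^ 2)

theorem angI_hasDerivAt (ρ q : ℝ) : HasDerivAt (angI ρ) (ang (q / ρ ^ 2)) q := by
  have hc : Continuous fun x : ℝ => ang (x / ρ ^ 2) :=
    ang_contDiff.continuous.comp (continuous_id.div_const _)
  exact intervalIntegral.integral_hasDerivAt_right (hc.intervalIntegrable _ _)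
    hc.aestronglyMeasurable.stronglyMeasurableAtFilter hc.continuousAt

theorem angI_contDiff (ρ : ℝ) : ContDiff ℝ ∞ (angI ρ) := by
  rw [contDiff_infty_iff_deriv]
  refine ⟨fun q => (angI_hasDerivAt ρ q).differentiableAt, ?_⟩
  have : deriv (angI ρ) = fun q => ang (q / ρ ^ 2) := funext fun q => (angI_hasDerivAt ρ q).deriv
  rw [this]
  exact ang_contDiff.comp (contDiff_id.div_const _)

/-- the twist with centre `c` and angle multiplied by `μ s` -/
noncomputable def twF (c : ℂ) (ρ : ℝ) (μ : ℝ → ℝ) (q : ℝ × ℂ) : ℂ :=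
  exp (((μ q.1 * ang (normSq (q.2 - c) / ρ ^ 2) : ℝ) : ℂ) * I) * (q.2 - c) + c

/-- its generating function -/
noncomputable def twH (c : ℂ) (ρ : ℝ) (μ : ℝ → ℝ) (q : ℝ × ℂ) : ℝ :=
  -(1 / 2) * (deriv μ q.1 * angI ρ (normSq (q.2 - c)))

theorem twF_dist (c : ℂ) (ρ : ℝ) (μ : ℝ → ℝ) (s : ℝ) (z : ℂ) :
    ‖twF c ρ μ (s, z) - c‖ = ‖z - c‖ := by
  unfold twF
  rw [add_sub_cancel_right, norm_mul, Complex.norm_exp_ofReal_mul_I, one_mul]

theorem twF_of_ge {c : ℂ} {ρ : ℝ} (hρ : 0 < ρ) (μ : ℝ → ℝ) (s : ℝ) {z : ℂ}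
    (h : ρ ≤ ‖z - c‖) : twF c ρ μ (s, z) = z := by
  unfold twF
  rw [ang_of_ge]
  · simp
  · show 1 ≤ normSq (z - c) / ρ ^ 2
    rw [Complex.normSq_eq_norm_sq, one_le_div (by positivity)]
    gcongr

theorem twF_zero {c : ℂ} {ρ : ℝ} {μ : ℝ → ℝ} {s : ℝ} (hs : μ s = 0) (z : ℂ) :
    twF c ρ μ (s, z) = z := by
  unfold twF
  simp [hs]

theorem twF_one {c : ℂ} {ρ : ℝ} {μ : ℝ → ℝ} {s : ℝ} (hs : μ s = 1) (z : ℂ) :
    twF c ρ μ (s, z) = twc c ρ z := by
  unfold twF twc tw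
  simp [hs, sub_eq_add_neg]

theorem twF_inj (c : ℂ) (ρ : ℝ) (μ : ℝ → ℝ) (s : ℝ) :
    Function.Injective fun z => twF c ρ μ (s, z) := by
  intro z w h
  have hn : ‖z - c‖ = ‖w - c‖ := by
    have h' : twF c ρ μ (s, z) = twF c ρ μ (s, w) := h
    rw [← twF_dist c ρ μ s z, ← twF_dist c ρ μ s w, h']
  have hs : normSq (z - c) = normSq (w - c) := by
    rw [Complex.normSq_eq_norm_sq, Complex.normSq_eq_norm_sq, hn]
  have h' : twF c ρ μ (s, z) = twF c ρ μ (s, w) := h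
  unfold twF at h'
  simp only at h'
  rw [hs] at h'
  exact sub_left_injective (mul_left_cancel₀ (Complex.exp_ne_zero _) (add_right_cancel h'))

theorem nsub_contDiff (c : ℂ) : ContDiff ℝ ∞ (fun q : ℝ × ℂ => normSq (q.2 - c)) :=
  normSq_contDiff.comp (contDiff_snd.sub contDiff_const)

theorem twAng_contDiff (c : ℂ) (ρ : ℝ) {μ : ℝ → ℝ} (hμ : ContDiff ℝ ∞ μ) :
    ContDiff ℝ ∞ (fun q : ℝ × ℂ => μ q.1 * ang (normSq (q.2 - c) / ρ ^ 2)) :=
  (hμ.comp contDiff_fst).mul (ang_contDiff.comp ((nsub_contDiff c).div_const _))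

theorem twF_contDiff (c : ℂ) (ρ : ℝ) {μ : ℝ → ℝ} (hμ : ContDiff ℝ ∞ μ) :
    ContDiff ℝ ∞ (twF c ρ μ) := by
  unfold twF
  exact (((Complex.ofRealCLM.contDiff.comp (twAng_contDiff c ρ hμ)).mul
    contDiff_const).cexp.mul (contDiff_snd.sub contDiff_const)).add contDiff_const

theorem twH_contDiff (c : ℂ) (ρ : ℝ) {μ : ℝ → ℝ} (hμ : ContDiff ℝ ∞ μ) :
    ContDiff ℝ ∞ (twH c ρ μ) := by
  unfold twH
  have h1 : ContDiff ℝ ∞ (deriv μ) := (contDiff_infty_iff_deriv.1 hμ).2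
  exact contDiff_const.mul ((h1.comp contDiff_fst).mul ((angI_contDiff ρ).comp (nsub_contDiff c)))

theorem nsub_hasFDerivAt (c : ℂ) (s : ℝ) (z : ℂ) :
    ∃ B : (ℝ × ℂ) →L[ℝ] ℝ, HasFDerivAt (fun q : ℝ × ℂ => normSq (q.2 - c)) B (s, z) ∧
      ∀ t v, B (t, v) = 2 * ((z - c).re * v.re + (z - c).im * v.im) := by
  have h1 : HasFDerivAt (fun q : ℝ × ℂ => q.2 - c) (ContinuousLinearMap.snd ℝ ℝ ℂ) (s, z) :=
    hasFDerivAt_snd.sub_const c
  have h2 := (normSq_hasFDerivAt (z - c)).comp (s, z) h1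
  refine ⟨_, h2, fun t v => ?_⟩
  simp
  ring

theorem twF_fam (c : ℂ) (ρ : ℝ) {μ : ℝ → ℝ} (hμ : ContDiff ℝ ∞ μ) :
    Fam univ (twF c ρ μ) (twH c ρ μ) := by
  have key : ∀ (s : ℝ) (z : ℂ), ∃ κ : ℝ, ∃ E : ℂ, normSq E = 1 ∧
      (∀ v, fderiv ℝ (twF c ρ μ) (s, z) (0, v) =
        E * (v + ((κ * ((z - c).re * v.re + (z - c).im * v.im) : ℝ) : ℂ) * (I * (z - c)))) ∧
      fderiv ℝ (twF c ρ μ) (s, z) (1, 0) =
        E * (((deriv μ s * ang (normSq (z - c) / ρ ^ 2) : ℝ) : ℂ) * (I * (z - c))) ∧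
      (∀ v, fderiv ℝ (twH c ρ μ) (s, z) (0, v) =
        -(deriv μ s * ang (normSq (z - c) / ρ ^ 2) *
          ((z - c).re * v.re + (z - c).im * v.im))) := by
    intro s z
    obtain ⟨B, hB, hBv⟩ := nsub_hasFDerivAt c s z
    have ha : HasDerivAt ang (deriv ang (normSq (z - c) / ρ ^ 2)) (normSq (z - c) / ρ ^ 2) :=
      (ang_contDiff.differentiable (by simp) _).hasDerivAt
    have h1 : HasFDerivAt (fun q : ℝ × ℂ => normSq (q.2 - c) / ρ ^ 2) ((ρ ^ 2)⁻¹ • B) (s, z) := by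
      have := hB.mul_const (ρ ^ 2)⁻¹
      simpa only [div_eq_mul_inv] using this
    have h2 : HasFDerivAt (fun q : ℝ × ℂ => ang (normSq (q.2 - c) / ρ ^ 2)) _ (s, z) :=
      HasDerivAt.comp_hasFDerivAt (h₂ := ang) (s, z) ha h1
    have hf1 : HasFDerivAt (fun q : ℝ × ℂ => q.1) (ContinuousLinearMap.fst ℝ ℝ ℂ) (s, z) :=
      hasFDerivAt_fst
    have hμd : HasDerivAt μ (deriv μ s) s := (hμ.differentiable (by simp) s).hasDerivAt
    have hm : HasFDerivAt (fun q : ℝ × ℂ => μ q.1) _ (s, z) :=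
      HasDerivAt.comp_hasFDerivAt (h₂ := μ) (s, z) hμd hf1
    have h3 : HasFDerivAt (fun q : ℝ × ℂ => μ q.1 * ang (normSq (q.2 - c) / ρ ^ 2)) _ (s, z) :=
      hm.mul h2
    have h4 : HasFDerivAt (fun q : ℝ × ℂ =>
        ((μ q.1 * ang (normSq (q.2 - c) / ρ ^ 2) : ℝ) : ℂ)) _ (s, z) :=
      Complex.ofRealCLM.hasFDerivAt.comp (s, z) h3
    have h5 : HasFDerivAt (fun q : ℝ × ℂ => q.2 - c) (ContinuousLinearMap.snd ℝ ℝ ℂ) (s, z) :=
      hasFDerivAt_snd.sub_const c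
    have h6 : HasFDerivAt (twF c ρ μ) _ (s, z) := (((h4.mul_const I).cexp.mul h5).add_const c)
    have hμd2 : HasDerivAt (deriv μ) (deriv (deriv μ) s) s :=
      (((contDiff_infty_iff_deriv.1 hμ).2).differentiable (by simp) s).hasDerivAt
    have h7 : HasFDerivAt (fun q : ℝ × ℂ => deriv μ q.1) _ (s, z) :=
      HasDerivAt.comp_hasFDerivAt (h₂ := deriv μ) (s, z) hμd2 hf1
    have h8 : HasFDerivAt (fun q : ℝ × ℂ => angI ρ (normSq (q.2 - c))) _ (s, z) :=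
      HasDerivAt.comp_hasFDerivAt (h₂ := angI ρ) (s, z) (angI_hasDerivAt ρ _) hB
    have h9 : HasFDerivAt (twH c ρ μ) _ (s, z) := (h7.mul h8).const_mul (-(1 / 2) : ℝ)
    refine ⟨μ s * (deriv ang (normSq (z - c) / ρ ^ 2) * (ρ ^ 2)⁻¹ * 2),
      exp (((μ s * ang (normSq (z - c) / ρ ^ 2) : ℝ) : ℂ) * I), ?_, ?_, ?_, ?_⟩
    · rw [Complex.normSq_eq_norm_sq, Complex.norm_exp_ofReal_mul_I, one_pow]
    · intro v
      rw [h6.fderiv]
      simp [hBv]
      ring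
    · rw [h6.fderiv]
      have hB0 : B (1, 0) = 0 := by rw [hBv]; simp
      simp [hB0]
      ring
    · intro v
      rw [h9.fderiv]
      simp [hBv]
      ring
  refine ⟨fun s z _ => (twF_contDiff c ρ hμ).contDiffAt,
    fun s z _ => (twH_contDiff c ρ hμ).contDiffAt, fun s => (twF_inj c ρ μ s).injOn, ?_, ?_⟩
  · intro s z _ v w
    obtain ⟨κ, E, hE, h1, -, -⟩ := key s z
    rw [h1, h1, om1_rot, hE]
    unfold om1
    simp
    ring
  · intro s z _ v
    obtain ⟨κ, E, hE, h1, h2, h3⟩ := key s z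
    rw [h1, h2, h3, om1_rot, hE]
    unfold om1
    simp
    ring

/-- Pushing the origin outwards with clock `μ`: after `j` steps. -/
theorem push_fam (ρ : ℝ) (hρ : 0 < ρ) {μ : ℝ → ℝ} (hμ : ContDiff ℝ ∞ μ) (j : ℕ) :
    ∃ (Ψ : ℝ × ℂ → ℂ) (h : ℝ × ℂ → ℝ) (τ : ℂ → ℂ), Fam univ Ψ h ∧ Sympl1 τ ∧
      (∀ s z, ‖Ψ (s, z)‖ ≤ ‖z‖ + 2 * ρ) ∧
      (∀ s z, ‖Ψ (s, z)‖ ≤ max ‖z‖ ((j + 1 / 2) * ρ)) ∧ τ ((j * ρ : ℝ) : ℂ) = 0 ∧
      (∀ s z, μ s = 1 → Ψ (s, z) = τ z) ∧ (∀ s z, μ s = 0 → Ψ (s, z) = z) ∧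
      (∀ s z, deriv μ s = 0 → h (s, z) = 0) := by
  induction j with
  | zero =>
    refine ⟨fun q => q.2, fun _ => 0, fun z => z, ?_, Sympl1.id, ?_, ?_, ?_, ?_, ?_, ?_⟩
    · have hd : ∀ (s : ℝ) (z : ℂ), HasFDerivAt (fun q : ℝ × ℂ => q.2)
          (ContinuousLinearMap.snd ℝ ℝ ℂ) (s, z) := fun s z => hasFDerivAt_snd
      refine ⟨fun s z _ => contDiffAt_snd, fun s z _ => contDiffAt_const,
        fun s z _ w _ h => h, ?_, ?_⟩
      · intro s z _ v w
        rw [(hd s z).fderiv]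
        simp
      · intro s z _ v
        rw [(hd s z).fderiv]
        simp [om1]
    · intro s z; simp only; linarith
    · intro s z; exact le_max_left _ _
    · simp
    · intro s z _; rfl
    · intro s z _; rfl
    · intro s z _; rfl
  | succ j ih =>
    obtain ⟨Ψ, h, τ, h0, h1, h2, h3, h4, h5, h6, h7⟩ := ih
    set c : ℂ := (((j + 1 / 2) * ρ : ℝ) : ℂ) with hc
    have hcn : ‖c‖ = (j + 1 / 2) * ρ := by
      rw [hc, Complex.norm_real, Real.norm_of_nonneg (by positivity)]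
    refine ⟨fun q => Ψ (q.1, twF c ρ μ q), fun q => h (q.1, twF c ρ μ q) + twH c ρ μ q,
      fun z => τ (twc c ρ z), h0.comp (twF_fam c ρ hμ) (fun _ _ _ => mem_univ _),
      h1.comp (twc_sympl c ρ), ?_, ?_, ?_, ?_, ?_, ?_⟩
    · intro s z
      show ‖Ψ (s, twF c ρ μ (s, z))‖ ≤ _
      by_cases hz : ρ ≤ ‖z - c‖
      · rw [twF_of_ge hρ μ s hz]; exact h2 s z
      · push Not at hz
        have g5 : ‖twF c ρ μ (s, z)‖ ≤ (j + 1 / 2) * ρ + ρ := by
          have : twF c ρ μ (s, z) = (twF c ρ μ (s, z) - c) + c := by ring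
          rw [this]
          refine (norm_add_le _ _).trans ?_
          rw [twF_dist, hcn]
          linarith only [hz]
        have g6 : (j + 1 / 2) * ρ - ρ ≤ ‖z‖ := by
          have : c = z - (z - c) := by ring
          have g7 : ‖c‖ ≤ ‖z‖ + ‖z - c‖ := by
            conv_lhs => rw [this]
            exact norm_sub_le _ _
          rw [hcn] at g7
          linarith only [g7, hz]
        have g8 := h3 s (twF c ρ μ (s, z))
        have g9 : max ‖twF c ρ μ (s, z)‖ ((j + 1 / 2) * ρ) ≤ (j + 1 / 2) * ρ + ρ :=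
          max_le g5 (by linarith only [hρ])
        linarith only [g6, g8, g9]
    · intro s z
      have hcast : ((j + 1 : ℕ) : ℝ) = (j : ℝ) + 1 := by push_cast; ring
      rw [hcast]
      show ‖Ψ (s, twF c ρ μ (s, z))‖ ≤ _
      by_cases hz : ρ ≤ ‖z - c‖
      · rw [twF_of_ge hρ μ s hz]
        refine (h3 s z).trans (max_le_max le_rfl ?_)
        linarith only [hρ]
      · push Not at hz
        have g5 : ‖twF c ρ μ (s, z)‖ ≤ (j + 1 / 2) * ρ + ρ := by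
          have : twF c ρ μ (s, z) = (twF c ρ μ (s, z) - c) + c := by ring
          rw [this]
          refine (norm_add_le _ _).trans ?_
          rw [twF_dist, hcn]
          linarith only [hz]
        refine (h3 _ _).trans ?_
        refine le_trans ?_ (le_max_right _ _)
        refine max_le ?_ ?_
        · linarith only [g5]
        · linarith only [hρ]
    · show τ (twc c ρ _) = 0
      rw [twc_swap hρ]
      · rw [← h4]
        congr 1
        rw [hc]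
        push_cast
        ring
      · have : ((((j + 1 : ℕ) : ℝ) * ρ : ℝ) : ℂ) - c = ((ρ / 2 : ℝ) : ℂ) := by
          rw [hc]
          push_cast
          ring
        rw [this, Complex.norm_real, Real.norm_of_nonneg (by positivity)]
        linarith only []
    · intro s z hs
      show Ψ (s, twF c ρ μ (s, z)) = _
      rw [h5 s _ hs, twF_one hs]
    · intro s z hs
      show Ψ (s, twF c ρ μ (s, z)) = _
      rw [h6 s _ hs, twF_zero hs]
    · intro s z hs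
      show h (s, twF c ρ μ (s, z)) + twH c ρ μ (s, z) = 0
      rw [h7 s _ hs]
      unfold twH
      simp [hs]

/-! ### The radial step -/

/-- area preserving radial translation by `b` in the action -/
noncomputable def rad (b : ℝ) (w : ℂ) : ℂ :=
  ((Real.sqrt (1 + b / (Real.pi * normSq w)) : ℝ) : ℂ) * w

theorem rad_zero (w : ℂ) : rad 0 w = w := by simp [rad]

theorem rad_pos {b : ℝ} (hb : 0 ≤ b) (w : ℂ) : 0 < 1 + b / (Real.pi * normSq w) := by
  have : 0 ≤ b / (Real.pi * normSq w) :=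
    div_nonneg hb (mul_nonneg Real.pi_pos.le (normSq_nonneg _))
  linarith

theorem rad_act {b : ℝ} (hb : 0 ≤ b) {w : ℂ} (hw : w ≠ 0) :
    Real.pi * ‖rad b w‖ ^ 2 = Real.pi * ‖w‖ ^ 2 + b := by
  unfold rad
  have h0 : normSq w ≠ 0 := by rwa [Ne, normSq_eq_zero]
  rw [norm_mul, mul_pow, Complex.norm_real, Real.norm_of_nonneg (Real.sqrt_nonneg _),
    Real.sq_sqrt (rad_pos hb w).le, ← Complex.normSq_eq_norm_sq]
  have := Real.pi_pos.ne'
  field_simp

theorem rad_inj {b : ℝ} (hb : 0 ≤ b) {w w' : ℂ} (hw : w ≠ 0) (hw' : w' ≠ 0)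
    (h : rad b w = rad b w') : w = w' := by
  have h1 := rad_act hb hw
  have h2 := rad_act hb hw'
  rw [h] at h1
  have h3 : Real.pi * ‖w‖ ^ 2 = Real.pi * ‖w'‖ ^ 2 := by linarith
  have h4 : normSq w = normSq w' := by
    rw [Complex.normSq_eq_norm_sq, Complex.normSq_eq_norm_sq]
    exact mul_left_cancel₀ Real.pi_pos.ne' h3
  unfold rad at h
  rw [h4] at h
  refine mul_left_cancel₀ ?_ h
  exact_mod_cast (Real.sqrt_pos.2 (rad_pos hb w')).ne'

theorem rad_deriv {b : ℝ} (hb : 0 ≤ b) {w : ℂ} (hw : w ≠ 0) :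
    ∃ L : (ℝ × ℂ) →L[ℝ] ℂ, HasFDerivAt (fun q : ℝ × ℂ => rad q.1 q.2) L (b, w) ∧
      (∀ v w', om1 (L (0, v)) (L (0, w')) = om1 v w') ∧
      (∀ v, om1 (L (1, 0)) (L (0, v)) = (w⁻¹ * v).im / (2 * Real.pi)) := by
  have hπ := Real.pi_pos
  have h0 : normSq w ≠ 0 := by rwa [Ne, normSq_eq_zero]
  have hw2 : HasFDerivAt (fun q : ℝ × ℂ => q.2) (ContinuousLinearMap.snd ℝ ℝ ℂ) (b, w) :=
    hasFDerivAt_snd
  have hb2 : HasFDerivAt (fun q : ℝ × ℂ => q.1) (ContinuousLinearMap.fst ℝ ℝ ℂ) (b, w) :=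
    hasFDerivAt_fst
  have h1 : HasFDerivAt (fun q : ℝ × ℂ => normSq q.2) _ (b, w) :=
    (normSq_hasFDerivAt w).comp (b, w) hw2
  have h2 : HasFDerivAt (fun q : ℝ × ℂ => Real.pi * normSq q.2) _ (b, w) := h1.const_mul Real.pi
  have h3 : HasFDerivAt (fun q : ℝ × ℂ => (Real.pi * normSq q.2)⁻¹) _ (b, w) :=
    HasDerivAt.comp_hasFDerivAt (h₂ := fun x : ℝ => x⁻¹) (b, w)
      (hasDerivAt_inv (mul_ne_zero hπ.ne' h0)) h2
  have h4 : HasFDerivAt (fun q : ℝ × ℂ => 1 + q.1 * (Real.pi * normSq q.2)⁻¹) _ (b, w) :=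
    (hb2.mul h3).const_add 1
  have h5 : HasFDerivAt (fun q : ℝ × ℂ => Real.sqrt (1 + q.1 * (Real.pi * normSq q.2)⁻¹)) _ (b, w) :=
    h4.sqrt (by have := rad_pos hb w; rw [div_eq_mul_inv] at this; exact this.ne')
  set g : ℝ := Real.sqrt (1 + b * (Real.pi * normSq w)⁻¹) with hg
  have hg2 : g ^ 2 = 1 + b * (Real.pi * normSq w)⁻¹ := by
    rw [hg, Real.sq_sqrt]
    have := rad_pos hb w; rw [div_eq_mul_inv] at this; exact this.le
  have hg0 : 0 < g := by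
    rw [hg, Real.sqrt_pos]
    have := rad_pos hb w; rw [div_eq_mul_inv] at this; exact this
  have hN : 0 < normSq w := normSq_pos.2 hw
  obtain ⟨D, hD, hD0, hD1⟩ : ∃ D : (ℝ × ℂ) →L[ℝ] ℝ,
      HasFDerivAt (fun q : ℝ × ℂ => Real.sqrt (1 + q.1 * (Real.pi * normSq q.2)⁻¹)) D (b, w) ∧
      (∀ v, D (0, v) = -b * (w.re * v.re + w.im * v.im) / (g * (Real.pi * normSq w ^ 2))) ∧
      D (1, 0) = 1 / (2 * g * (Real.pi * normSq w)) := by
    refine ⟨_, h5, fun v => ?_, ?_⟩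
    · simp
      field_simp
      ring
    · simp
      field_simp
  have h6 : HasFDerivAt (fun q : ℝ × ℂ =>
      ((Real.sqrt (1 + q.1 * (Real.pi * normSq q.2)⁻¹) : ℝ) : ℂ)) (Complex.ofRealCLM.comp D)
      (b, w) := Complex.ofRealCLM.hasFDerivAt.comp (b, w) hD
  have h7 : HasFDerivAt (fun q : ℝ × ℂ =>
      ((Real.sqrt (1 + q.1 * (Real.pi * normSq q.2)⁻¹) : ℝ) : ℂ) * q.2) _ (b, w) := h6.mul hw2
  have h8 : (fun q : ℝ × ℂ => rad q.1 q.2) = fun q : ℝ × ℂ =>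
      ((Real.sqrt (1 + q.1 * (Real.pi * normSq q.2)⁻¹) : ℝ) : ℂ) * q.2 := by
    funext q; simp only [rad, div_eq_mul_inv]
  rw [h8]
  obtain ⟨L, hL, hL0, hL1⟩ : ∃ L : (ℝ × ℂ) →L[ℝ] ℂ,
      HasFDerivAt (fun q : ℝ × ℂ =>
        ((Real.sqrt (1 + q.1 * (Real.pi * normSq q.2)⁻¹) : ℝ) : ℂ) * q.2) L (b, w) ∧
      (∀ v, L (0, v) = (g : ℂ) * v + (D (0, v) : ℂ) * w) ∧ L (1, 0) = (D (1, 0) : ℂ) * w := by
    refine ⟨(g : ℂ) • ContinuousLinearMap.snd ℝ ℝ ℂ + w • (Complex.ofRealCLM.comp D), h7,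
      fun v => ?_, ?_⟩
    · simp
      ring
    · simp
      ring
  have hns : normSq w = w.re * w.re + w.im * w.im := Complex.normSq_apply w
  have self : om1 w w = 0 := by unfold om1; ring
  refine ⟨L, hL, ?_, ?_⟩
  · intro v w'
    rw [hL0, hL0, om1_add_left, om1_add_right, om1_add_right, om1_smul_left, om1_smul_left,
      om1_smul_left, om1_smul_left, om1_smul_right, om1_smul_right, om1_smul_right,
      om1_smul_right, self, hD0, hD0]
    have e1 : (w.re * v.re + w.im * v.im) * om1 w w' - (w.re * w'.re + w.im * w'.im) * om1 w v =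
        normSq w * om1 v w' := by
      rw [hns]; unfold om1; ring
    have e2 : om1 v w = - om1 w v := by unfold om1; ring
    rw [e2]
    have e3 : g * (g * om1 v w') = (1 + b * (Real.pi * normSq w)⁻¹) * om1 v w' := by
      rw [← hg2]; ring
    rw [e3]
    have e4 : om1 v w' = ((w.re * v.re + w.im * v.im) * om1 w w' -
        (w.re * w'.re + w.im * w'.im) * om1 w v) / normSq w := by
      rw [e1]; field_simp
    rw [e4]
    field_simp
    ring
  · intro v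
    rw [hL0, hL1, om1_add_right, om1_smul_left, om1_smul_left, om1_smul_right, om1_smul_right,
      self, hD1]
    have e1 : (w⁻¹ * v).im = om1 w v / normSq w := by
      unfold om1
      simp [Complex.mul_im, Complex.inv_re, Complex.inv_im]
      ring
    rw [e1]
    field_simp
    ring

theorem rad_contDiffAt {b : ℝ} (hb : 0 ≤ b) {w : ℂ} (hw : w ≠ 0) :
    ContDiffAt ℝ ∞ (fun q : ℝ × ℂ => rad q.1 q.2) (b, w) := by
  have h0 : normSq w ≠ 0 := by rwa [Ne, normSq_eq_zero]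
  have h1 : ContDiffAt ℝ ∞ (fun q : ℝ × ℂ => Real.pi * normSq q.2) (b, w) :=
    contDiffAt_const.mul ((normSq_contDiff.comp contDiff_snd).contDiffAt)
  have h2 : ContDiffAt ℝ ∞ (fun q : ℝ × ℂ => 1 + q.1 / (Real.pi * normSq q.2)) (b, w) :=
    contDiffAt_const.add (contDiffAt_fst.div h1 (mul_ne_zero Real.pi_pos.ne' h0))
  have h3 : ContDiffAt ℝ ∞ (fun q : ℝ × ℂ => Real.sqrt (1 + q.1 / (Real.pi * normSq q.2)))
      (b, w) := h2.sqrt (rad_pos hb w).ne'
  exact (Complex.ofRealCLM.contDiff.contDiffAt.comp (b, w) h3).mul contDiffAt_snd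

theorem partial_snd {E : Type*} [NormedAddCommGroup E] [NormedSpace ℝ E] {g : ℝ × ℂ → E} {s : ℝ}
    {z : ℂ} (hg : DifferentiableAt ℝ g (s, z)) (v : ℂ) :
    fderiv ℝ (fun z => g (s, z)) z v = fderiv ℝ g (s, z) (0, v) := by
  have h1 : HasFDerivAt (fun z : ℂ => (s, z)) (ContinuousLinearMap.inr ℝ ℝ ℂ) z :=
    hasFDerivAt_prodMk_right s z
  have h2 : HasFDerivAt (fun z => g (s, z)) _ z := hg.hasFDerivAt.comp z h1
  rw [h2.fderiv]
  simp

theorem partial_fst {E : Type*} [NormedAddCommGroup E] [NormedSpace ℝ E] {g : ℝ × ℂ → E} {s : ℝ}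
    {z : ℂ} (hg : DifferentiableAt ℝ g (s, z)) :
    deriv (fun t => g (t, z)) s = fderiv ℝ g (s, z) (1, 0) := by
  have h1 : HasFDerivAt (fun t : ℝ => (t, z)) (ContinuousLinearMap.inl ℝ ℝ ℂ) s :=
    hasFDerivAt_prodMk_left s z
  have h2 : HasFDerivAt (fun t => g (t, z)) _ s := hg.hasFDerivAt.comp s h1
  rw [h2.hasDerivAt.deriv]
  simp

/-- The clock of the twists. -/
noncomputable def clk (ε s : ℝ) : ℝ := Real.smoothTransition (4 * s / ε - 1)

/-- The radial displacement. -/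
noncomputable def dis (ε s : ℝ) : ℝ := s * Real.smoothTransition (2 * s / ε - 1)

theorem clk_contDiff (ε : ℝ) : ContDiff ℝ ∞ (clk ε) := by
  unfold clk
  exact Real.smoothTransition.contDiff.comp
    (((contDiff_const.mul contDiff_id).div_const _).sub contDiff_const)

theorem dis_contDiff (ε : ℝ) : ContDiff ℝ ∞ (dis ε) := by
  unfold dis
  exact contDiff_id.mul (Real.smoothTransition.contDiff.comp
    (((contDiff_const.mul contDiff_id).div_const _).sub contDiff_const))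

theorem clk_zero {ε s : ℝ} (hε : 0 < ε) (h : s ≤ ε / 4) : clk ε s = 0 := by
  unfold clk
  apply Real.smoothTransition.zero_of_nonpos
  rw [sub_nonpos, div_le_one hε]
  linarith

theorem clk_one {ε s : ℝ} (hε : 0 < ε) (h : ε / 2 ≤ s) : clk ε s = 1 := by
  unfold clk
  apply Real.smoothTransition.one_of_one_le
  rw [le_sub_iff_add_le, le_div_iff₀ hε]
  linarith

theorem clk_deriv_zero {ε s : ℝ} (hε : 0 < ε) (h : s ≤ 0) : deriv (clk ε) s = 0 := by
  have : clk ε =ᶠ[nhds s] fun _ => 0 := by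
    filter_upwards [Iio_mem_nhds (show s < ε / 4 by linarith)] with t ht
    exact clk_zero hε (le_of_lt ht)
  rw [this.deriv_eq]
  simp

theorem dis_zero {ε s : ℝ} (hε : 0 < ε) (h : s ≤ ε / 2) : dis ε s = 0 := by
  unfold dis
  rw [Real.smoothTransition.zero_of_nonpos, mul_zero]
  rw [sub_nonpos, div_le_one hε]
  linarith

theorem dis_eq {ε s : ℝ} (hε : 0 < ε) (h : ε ≤ s) : dis ε s = s := by
  unfold dis
  rw [Real.smoothTransition.one_of_one_le, mul_one]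
  rw [le_sub_iff_add_le, le_div_iff₀ hε]
  linarith

theorem dis_deriv_zero {ε s : ℝ} (hε : 0 < ε) (h : s < ε / 2) : deriv (dis ε) s = 0 := by
  have : dis ε =ᶠ[nhds s] fun _ => 0 := by
    filter_upwards [Iio_mem_nhds h] with t ht
    exact dis_zero hε (le_of_lt ht)
  rw [this.deriv_eq]
  simp

theorem dis_nonneg {ε : ℝ} (hε : 0 < ε) (s : ℝ) : 0 ≤ dis ε s := by
  rcases le_total s (ε / 2) with h | h
  · rw [dis_zero hε h]
  · unfold dis
    exact mul_nonneg (by linarith) (Real.smoothTransition.nonneg _)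

theorem dis_le {ε : ℝ} (hε : 0 < ε) (s : ℝ) : dis ε s ≤ max s 0 := by
  rcases le_total s (ε / 2) with h | h
  · rw [dis_zero hε h]; exact le_max_right _ _
  · refine le_trans ?_ (le_max_left _ _)
    unfold dis
    exact mul_le_of_le_one_right (by linarith) (Real.smoothTransition.le_one _)

theorem le_dis {ε : ℝ} (hε : 0 < ε) (s : ℝ) : max s 0 - ε ≤ dis ε s := by
  rcases le_total ε s with h | h
  · rw [dis_eq hε h, max_eq_left (by linarith)]; linarith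
  · have h1 := dis_nonneg hε s
    have h2 : max s 0 ≤ ε := max_le h hε.le
    linarith

/-- The disc lemma, with total derivatives. -/
theorem exists_disc_fam (A ε : ℝ) (hA : 0 < A) (hε : 0 < ε) :
    ∃ (Psi : ℝ × ℂ → ℂ) (h : ℝ × ℂ → ℝ) (phi : ℂ → ℝ), Fam (dsc A) Psi h ∧
      (∀ z ∈ dsc A, ContDiffAt ℝ ∞ phi z) ∧
      (∀ s, s ≤ 0 → ∀ z ∈ dsc A, Psi (s, z) = z ∧ h (s, z) = 0) ∧
      (∀ s, ∀ z ∈ dsc A, max s 0 - ε ≤ Real.pi * ‖Psi (s, z)‖ ^ 2 ∧
        Real.pi * ‖Psi (s, z)‖ ^ 2 ≤ Real.pi * ‖z‖ ^ 2 + max s 0 + ε) ∧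
      (∀ s, ε ≤ s → ∀ z ∈ dsc A, Psi (s, z) ≠ 0 ∧
        Psi (s, z) = (‖Psi (s, z)‖ : ℂ) * exp (2 * Real.pi * phi z * I)) := by
  have hpi := Real.pi_pos
  set r' : ℝ := Real.sqrt (A / Real.pi) with hr'
  have hr'0 : 0 < r' := Real.sqrt_pos.2 (div_pos hA hpi)
  have hr'2 : Real.pi * r' ^ 2 = A := by
    rw [hr', Real.sq_sqrt (div_pos hA hpi).le]
    field_simp
  have hmem : ∀ z, z ∈ dsc A ↔ ‖z‖ < r' := by
    intro z
    show Real.pi * ‖z‖ ^ 2 < A ↔ _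
    rw [← hr'2, mul_lt_mul_iff_right₀ hpi]
    exact pow_lt_pow_iff_left₀ (norm_nonneg _) hr'0.le (by norm_num)
  obtain ⟨ρ, hρ, hρ'⟩ : ∃ ρ : ℝ, 0 < ρ ∧ ∀ x, 0 ≤ x → x < r' →
      Real.pi * (x + 2 * ρ) ^ 2 ≤ Real.pi * x ^ 2 + ε := by
    have h1 : 0 < Real.pi * (4 * r' + 4) := by positivity
    refine ⟨min 1 (ε / (Real.pi * (4 * r' + 4))), lt_min one_pos (div_pos hε h1), ?_⟩
    intro x hx hx'
    set e := min 1 (ε / (Real.pi * (4 * r' + 4))) with he
    have e0 : 0 < e := lt_min one_pos (div_pos hε h1)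
    have e1 : e ≤ 1 := min_le_left _ _
    have e2 : e * (Real.pi * (4 * r' + 4)) ≤ ε := by
      have := min_le_right 1 (ε / (Real.pi * (4 * r' + 4)))
      rwa [← he, le_div_iff₀ h1] at this
    have e3 : e * (4 * x + 4 * e) ≤ e * (4 * r' + 4) :=
      mul_le_mul_of_nonneg_left (by linarith only [hx', e1]) e0.le
    have e4 : Real.pi * (e * (4 * x + 4 * e)) ≤ Real.pi * (e * (4 * r' + 4)) :=
      mul_le_mul_of_nonneg_left e3 hpi.le
    nlinarith
  obtain ⟨j, hj⟩ := exists_nat_gt (r' / ρ)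
  rw [div_lt_iff₀ hρ] at hj
  obtain ⟨Ψ, h₀, τ, F, hτ, hb, -, hτ0, hone, hzero, hh0⟩ :=
    push_fam ρ hρ (clk_contDiff ε) j
  have hτne : ∀ z, ‖z‖ < r' → τ z ≠ 0 := by
    intro z hz h0
    have h5 : z = ((j * ρ : ℝ) : ℂ) := hτ.inj (by rw [h0, hτ0])
    have h6 : ‖z‖ = j * ρ := by
      rw [h5, Complex.norm_real, Real.norm_of_nonneg (by positivity)]
    linarith only [hz, h6, hj]
  obtain ⟨f, hf, hfl⟩ := Strong.a1_log hτ.smooth hr'0 hτne
  have hfs : ∀ z, ‖z‖ < r' → ContDiffAt ℝ ∞ f z := fun z hz =>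
    Strong.a1_log_contDiffAt hτ.smooth (hτne z hz) (hfl z hz)
  have hphi : ∀ z, ‖z‖ < r' → ContDiffAt ℝ ∞ (fun z => (f z).im / (2 * Real.pi)) z := by
    intro z hz
    exact (Complex.imCLM.contDiff.contDiffAt.comp z (hfs z hz)).div_const _
  have hder : ContDiff ℝ ∞ (deriv (dis ε)) := (contDiff_infty_iff_deriv.1 (dis_contDiff ε)).2
  have hΨτ : ∀ s, ε / 2 ≤ s → ∀ z, Ψ (s, z) = τ z := fun s hs z => hone s z (clk_one hε hs)
  have hevΨ : ∀ s, s < ε / 2 → ∀ z,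
      (fun q : ℝ × ℂ => rad (dis ε q.1) (Ψ q)) =ᶠ[nhds (s, z)] Ψ := by
    intro s hs z
    have : {q : ℝ × ℂ | q.1 < ε / 2} ∈ nhds (s, z) :=
      (isOpen_lt continuous_fst continuous_const).mem_nhds hs
    filter_upwards [this] with q hq
    rw [dis_zero hε (le_of_lt hq), rad_zero]
  have hevh : ∀ s, s < ε / 2 → ∀ z,
      (fun q : ℝ × ℂ => h₀ q + deriv (dis ε) q.1 * ((f q.2).im / (2 * Real.pi)))
        =ᶠ[nhds (s, z)] h₀ := by
    intro s hs z
    have : {q : ℝ × ℂ | q.1 < ε / 2} ∈ nhds (s, z) :=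
      (isOpen_lt continuous_fst continuous_const).mem_nhds hs
    filter_upwards [this] with q hq
    rw [dis_deriv_zero hε hq, zero_mul, add_zero]
  have hD : ∀ s, ε / 2 ≤ s → ∀ z, ‖z‖ < r' → ∃ L : (ℝ × ℂ) →L[ℝ] ℂ,
      HasFDerivAt (fun q : ℝ × ℂ => rad (dis ε q.1) (Ψ q)) L (s, z) ∧
      (∀ v w, om1 (L (0, v)) (L (0, w)) =
        om1 (fderiv ℝ Ψ (s, z) (0, v)) (fderiv ℝ Ψ (s, z) (0, w))) ∧
      (∀ v, om1 (L (1, 0)) (L (0, v)) =
        deriv (dis ε) s * (((Ψ (s, z))⁻¹ * fderiv ℝ Ψ (s, z) (0, v)).im / (2 * Real.pi)) +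
        om1 (fderiv ℝ Ψ (s, z) (1, 0)) (fderiv ℝ Ψ (s, z) (0, v))) := by
    intro s hs z hz
    have h0 : Ψ (s, z) ≠ 0 := by rw [hΨτ s hs]; exact hτne z hz
    obtain ⟨L, hL, ha, hh⟩ := rad_deriv (dis_nonneg hε s) h0
    have hf1 : HasFDerivAt (fun q : ℝ × ℂ => q.1) (ContinuousLinearMap.fst ℝ ℝ ℂ) (s, z) :=
      hasFDerivAt_fst
    have d2 : HasDerivAt (dis ε) (deriv (dis ε) s) s :=
      ((dis_contDiff ε).differentiable (by simp) s).hasDerivAt
    have d3 : HasFDerivAt (fun q : ℝ × ℂ => dis ε q.1) _ (s, z) :=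
      HasDerivAt.comp_hasFDerivAt (h₂ := dis ε) (s, z) d2 hf1
    have d4 : HasFDerivAt Ψ (fderiv ℝ Ψ (s, z)) (s, z) :=
      ((F.smooth s z (mem_univ _)).differentiableAt (by simp)).hasFDerivAt
    have d5 : HasFDerivAt (fun q : ℝ × ℂ => (dis ε q.1, Ψ q)) _ (s, z) := d3.prodMk d4
    have d6 : HasFDerivAt (fun q : ℝ × ℂ => rad (dis ε q.1) (Ψ q)) _ (s, z) :=
      HasFDerivAt.comp (g := fun q : ℝ × ℂ => rad q.1 q.2) (s, z) hL d5
    refine ⟨_, d6, fun v w => ?_, fun v => ?_⟩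
    · simp only [ContinuousLinearMap.comp_apply, ContinuousLinearMap.prod_apply, smul_apply,
        ContinuousLinearMap.coe_fst', smul_zero]
      exact ha _ _
    · simp only [ContinuousLinearMap.comp_apply, ContinuousLinearMap.prod_apply, smul_apply,
        ContinuousLinearMap.coe_fst', smul_eq_mul, mul_one, mul_zero]
      have e1 : L (deriv (dis ε) s, (fderiv ℝ Ψ (s, z)) (1, 0)) =
          ((deriv (dis ε) s : ℝ) : ℂ) * L (1, 0) + L (0, (fderiv ℝ Ψ (s, z)) (1, 0)) := by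
        have : (deriv (dis ε) s, (fderiv ℝ Ψ (s, z)) (1, 0)) =
            (deriv (dis ε) s) • ((1 : ℝ), (0 : ℂ)) + (0, (fderiv ℝ Ψ (s, z)) (1, 0)) := by simp
        rw [this, map_add, map_smul, Complex.real_smul]
      rw [e1, om1_add_left, om1_smul_left, hh, ha]
  refine ⟨fun q => rad (dis ε q.1) (Ψ q),
    fun q => h₀ q + deriv (dis ε) q.1 * ((f q.2).im / (2 * Real.pi)),
    fun z => (f z).im / (2 * Real.pi), ⟨?_, ?_, ?_, ?_, ?_⟩, ?_, ?_, ?_, ?_⟩
  · intro s z hz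
    rcases lt_or_ge s (ε / 2) with hs | hs
    · exact (F.smooth s z (mem_univ _)).congr_of_eventuallyEq (hevΨ s hs z)
    · have h0 : Ψ (s, z) ≠ 0 := by rw [hΨτ s hs]; exact hτne z ((hmem z).1 hz)
      exact ContDiffAt.comp (g := fun q : ℝ × ℂ => rad q.1 q.2)
        (f := fun q : ℝ × ℂ => (dis ε q.1, Ψ q)) (s, z)
        (rad_contDiffAt (dis_nonneg hε s) h0)
        (((dis_contDiff ε).contDiffAt.comp (s, z) contDiffAt_fst).prodMk
          (F.smooth s z (mem_univ _)))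
  · intro s z hz
    exact (F.hsmooth s z (mem_univ _)).add ((hder.contDiffAt.comp (s, z) contDiffAt_fst).mul
      (ContDiffAt.comp (g := fun z : ℂ => (f z).im / (2 * Real.pi)) (s, z)
        (hphi z ((hmem z).1 hz)) contDiffAt_snd))
  · intro s z hz w hw hzw
    have hzw' : rad (dis ε s) (Ψ (s, z)) = rad (dis ε s) (Ψ (s, w)) := hzw
    rcases lt_or_ge s (ε / 2) with hs | hs
    · rw [dis_zero hε hs.le, rad_zero, rad_zero] at hzw'
      exact F.inj s (mem_univ _) (mem_univ _) hzw'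
    · have h0 : Ψ (s, z) ≠ 0 := by rw [hΨτ s hs]; exact hτne z ((hmem z).1 hz)
      have h0' : Ψ (s, w) ≠ 0 := by rw [hΨτ s hs]; exact hτne w ((hmem w).1 hw)
      exact F.inj s (mem_univ _) (mem_univ _) (rad_inj (dis_nonneg hε s) h0 h0' hzw')
  · intro s z hz v w
    rcases lt_or_ge s (ε / 2) with hs | hs
    · rw [(hevΨ s hs z).fderiv_eq]
      exact F.area s z (mem_univ _) v w
    · rw [(hD s hs z ((hmem z).1 hz)).choose_spec.1.fderiv]
      rw [(hD s hs z ((hmem z).1 hz)).choose_spec.2.1]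
      exact F.area s z (mem_univ _) v w
  · intro s z hz v
    rcases lt_or_ge s (ε / 2) with hs | hs
    · rw [(hevΨ s hs z).fderiv_eq, (hevh s hs z).fderiv_eq]
      exact F.ham s z (mem_univ _) v
    · rw [(hD s hs z ((hmem z).1 hz)).choose_spec.1.fderiv,
        (hD s hs z ((hmem z).1 hz)).choose_spec.2.2]
      have hz' := (hmem z).1 hz
      have d1 : HasFDerivAt h₀ (fderiv ℝ h₀ (s, z)) (s, z) :=
        ((F.hsmooth s z (mem_univ _)).differentiableAt (by simp)).hasFDerivAt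
      have d2 : HasDerivAt (deriv (dis ε)) (deriv (deriv (dis ε)) s) s :=
        (hder.differentiable (by simp) s).hasDerivAt
      have hf1 : HasFDerivAt (fun q : ℝ × ℂ => q.1) (ContinuousLinearMap.fst ℝ ℝ ℂ) (s, z) :=
        hasFDerivAt_fst
      have hf2 : HasFDerivAt (fun q : ℝ × ℂ => q.2) (ContinuousLinearMap.snd ℝ ℝ ℂ) (s, z) :=
        hasFDerivAt_snd
      have d3 : HasFDerivAt (fun q : ℝ × ℂ => deriv (dis ε) q.1) _ (s, z) :=
        HasDerivAt.comp_hasFDerivAt (h₂ := deriv (dis ε)) (s, z) d2 hf1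
      have d4 : HasFDerivAt f (fderiv ℝ f z) z :=
        ((hfs z hz').differentiableAt (by simp)).hasFDerivAt
      have d5 : HasFDerivAt (fun q : ℝ × ℂ => f q.2) _ (s, z) := d4.comp (s, z) hf2
      have d6 : HasFDerivAt (fun q : ℝ × ℂ => (f q.2).im) _ (s, z) :=
        Complex.imCLM.hasFDerivAt.comp (s, z) d5
      have d7 : HasFDerivAt (fun q : ℝ × ℂ => (f q.2).im * (2 * Real.pi)⁻¹) _ (s, z) :=
        d6.mul_const (2 * Real.pi)⁻¹
      have d8 := d1.add (d3.mul d7)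
      have d9 : (fun q : ℝ × ℂ => h₀ q + deriv (dis ε) q.1 * ((f q.2).im / (2 * Real.pi))) =
          h₀ + (fun q : ℝ × ℂ => deriv (dis ε) q.1) * fun q : ℝ × ℂ =>
            (f q.2).im * (2 * Real.pi)⁻¹ := rfl
      rw [d9, d8.fderiv]
      have e1 := Strong.a1_log_fderiv hτ.smooth (hτne z hz') (hfl z hz') v
      have e2 : fderiv ℝ Ψ (s, z) (0, v) = fderiv ℝ τ z v := by
        rw [← partial_snd ((F.smooth s z (mem_univ _)).differentiableAt (by simp))]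
        congr 2
        funext z
        exact hΨτ s hs z
      rw [← F.ham s z (mem_univ _) v, e2, hΨτ s hs, ← e1]
      simp
      ring
  · intro z hz
    exact hphi z ((hmem z).1 hz)
  · intro s hs z hz
    refine ⟨?_, ?_⟩
    · show rad (dis ε s) (Ψ (s, z)) = z
      rw [dis_zero hε (by linarith), rad_zero]
      exact hzero s z (clk_zero hε (by linarith))
    · show h₀ (s, z) + deriv (dis ε) s * ((f z).im / (2 * Real.pi)) = 0
      rw [dis_deriv_zero hε (by linarith), hh0 s z (clk_deriv_zero hε hs)]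
      simp
  · intro s z hz
    have hz' := (hmem z).1 hz
    show max s 0 - ε ≤ Real.pi * ‖rad (dis ε s) (Ψ (s, z))‖ ^ 2 ∧
      Real.pi * ‖rad (dis ε s) (Ψ (s, z))‖ ^ 2 ≤ Real.pi * ‖z‖ ^ 2 + max s 0 + ε
    have e0 : Real.pi * ‖rad (dis ε s) (Ψ (s, z))‖ ^ 2 = Real.pi * ‖Ψ (s, z)‖ ^ 2 + dis ε s := by
      rcases lt_or_ge s (ε / 2) with hs | hs
      · rw [dis_zero hε hs.le, rad_zero, add_zero]
      · have h0 : Ψ (s, z) ≠ 0 := by rw [hΨτ s hs]; exact hτne z hz'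
        exact rad_act (dis_nonneg hε s) h0
    rw [e0]
    have e1 : Real.pi * ‖Ψ (s, z)‖ ^ 2 ≤ Real.pi * (‖z‖ + 2 * ρ) ^ 2 := by
      refine mul_le_mul_of_nonneg_left ?_ hpi.le
      exact pow_le_pow_left₀ (norm_nonneg _) (hb s z) 2
    have e2 := hρ' ‖z‖ (norm_nonneg _) hz'
    have e3 : 0 ≤ Real.pi * ‖Ψ (s, z)‖ ^ 2 := by positivity
    have e4 := dis_le hε s
    have e5 := le_dis hε s
    constructor <;> linarith
  · intro s hs z hz
    have hz' := (hmem z).1 hz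
    have hs2 : ε / 2 ≤ s := by linarith
    show rad (dis ε s) (Ψ (s, z)) ≠ 0 ∧ rad (dis ε s) (Ψ (s, z)) =
      (‖rad (dis ε s) (Ψ (s, z))‖ : ℂ) *
        exp (2 * Real.pi * (((f z).im / (2 * Real.pi) : ℝ) : ℂ) * I)
    rw [hΨτ s hs2]
    have h0 := hτne z hz'
    have hg : 0 < Real.sqrt (1 + dis ε s / (Real.pi * normSq (τ z))) :=
      Real.sqrt_pos.2 (rad_pos (dis_nonneg hε s) _)
    refine ⟨?_, ?_⟩
    · unfold rad
      exact mul_ne_zero (by exact_mod_cast hg.ne') h0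
    · have e1 : ‖rad (dis ε s) (τ z)‖ =
          Real.sqrt (1 + dis ε s / (Real.pi * normSq (τ z))) * ‖τ z‖ := by
        unfold rad
        rw [norm_mul, Complex.norm_real, Real.norm_of_nonneg hg.le]
      have e2 : τ z = (‖τ z‖ : ℂ) * exp (2 * Real.pi * (((f z).im / (2 * Real.pi) : ℝ) : ℂ) * I) := by
        have e3 : (2 * Real.pi * (((f z).im / (2 * Real.pi) : ℝ) : ℂ) * I) =
            ((f z).im : ℂ) * I := by
          push_cast
          have : (Real.pi : ℂ) ≠ 0 := by exact_mod_cast hpi.ne'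
          field_simp
        rw [e3, ← hf z hz', Complex.norm_exp, Complex.ofReal_exp, ← Complex.exp_add,
          Complex.re_add_im]
      rw [e1, Complex.ofReal_mul, mul_assoc, ← e2]
      rfl

end Vale.Agent.P209.H863
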